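import Vale.Agent.N314R.Main

/-!
One deterministic polynomial time machine for black-box identity testing over all fields:
rational formulas defined at a scalar point.
-/

namespace Vale.Agent.Results.P314.A0Rational

open Vale.Agent.N314R

universe u v

/-- There are tables of bits `B n s`, independent of the field and written in polynomial time from
`n` and `s` in unary (for all code words of the entries `0` and `1`), such that over every field
`F` the single tuple `T` of matrices with these entries satisfies: every rational formula
of size at most `s` that is defined at the scalar point `a` is defined at `a + T`, with a nonzero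
value if it has a nonzero value at some point of some stably finite algebra. -/
theorem result :
    ∃ (d : ℕ → ℕ → ℕ) (B : ∀ n s : ℕ, Fin n → Fin (d n s) → Fin (d n s) → Bool),
      (∀ c : Bool → List Bool, ∃ M : Turing.TM2ComputableInPolyTime
          (fun x : ℕ × ℕ => List.replicate x.1 true ++ false :: List.replicate x.2 true)
          (fun w : List Bool => w) (fun x : ℕ × ℕ => code c (B x.1 x.2)),
        ∀ k, Finite (M.tm.Γ k)) ∧
      ∀ (F : Type u) [Field F] (n s : ℕ), HitsRational.{u, u, v} F s (mat01 F (B n s)) :=
  ⟨fun n s => bs n s ^ 4, table, exists_machine_table, fun _ _ _ _ p a hp ⟨_, hc⟩ =>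
    rational p a (hp.trans (Nat.le_mul_of_pos_left _ two_pos)) hc⟩

end Vale.Agent.Results.P314.A0Rational
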