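import Vale.Agent.N314.Main

/-!
Hitting sets in deterministic polynomial time for noncommutative algebraic branching programs,
also with invertible values.
-/

namespace Vale.Agent.Results.P314.A0StrongHitting

open Vale.Agent.P314 Vale.Agent.N314

universe u

/-- For every field `F` and all binary codes `enc` of its elements, there are lists `H n s` of
tuples of matrices such that (1) the code of `H n s` is computed from `n` and `s` (in unary) by a
deterministic Turing machine in polynomial time; (2) all entries are `0`, `1` or `-1`;
(3) every nonzero polynomial computed by a branching program with at most `s` vertices has an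
invertible value at a member of positive dimension; (4) one member with entries `0` and `1` alone
hits all these branching programs. -/
theorem result (F : Type u) [Field F] (enc : F → List Bool) :
    ∃ H : (n : ℕ) → ℕ → List (Tuple F n),
      (∃ M : Turing.TM2ComputableInPolyTime codeInput (fun w : List Bool => w)
          (fun x : ℕ × ℕ => codeList ((H x.1 x.2).map (Tuple.code enc))),
        ∀ k, Finite (M.tm.Γ k)) ∧
      (∀ n s, ∀ t ∈ H n s, ∀ i j k, t.T i j k = 0 ∨ t.T i j k = 1 ∨ t.T i j k = -1) ∧
      (∀ n s (P : ABP F n), P.verts ≤ s → P.value ≠ 0 →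
        ∃ t ∈ H n s, 0 < t.d ∧ IsUnit (FreeAlgebra.lift F t.T P.value)) ∧
      ∀ n s, ∃ t ∈ H n s, t.d ≤ ((n + 1) * (s + 1) ^ 3) ^ 4 ∧
        (∀ i j k, t.T i j k = 0 ∨ t.T i j k = 1) ∧
        ∀ P : ABP F n, P.verts ≤ s → P.value ≠ 0 → FreeAlgebra.lift F t.T P.value ≠ 0 := by
  obtain ⟨H, -, a, -, c, d, e⟩ := N314.main F enc
  exact ⟨H, a, e, c, fun n s => (d n s).imp fun t h => ⟨h.1, h.2.1, h.2.2.1, h.2.2.2.2⟩⟩

end Vale.Agent.Results.P314.A0StrongHitting
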